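import Claimed.Agent.R152.B.Model.Tile
import Claimed.Agent.R152.B.Cut.Part

/-!
# Row 152, module B, sec. 5.3: ADAPTED CHARTS

Black boxes: `Model/Cube.lean`, `Model/Tile.lean`, `Cut/Part.lean` (`cross_supp`).   Statements FROZEN; auxiliary lemmas welcome.
-/

namespace Claimed.Agent.R152.B

universe u
variable {D : Type u} [Group D] {S : Type u} [MulAction D S] {s0 t0 : S}

open Tile

/-- For ANY chart `e` of `a` the cut is along some coordinate of `e`. -/
theorem tsp_chart {a b c : Tile D S} (h : TSp a b c) {e : Chart S} (he : a = mk e) :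
    ∃ s : S, b = mk (e.cut s false) ∧ c = mk (e.cut s true) := by
  obtain ⟨e', s', ha, hb, hc⟩ := h
  obtain ⟨d, rfl⟩ := (mk_eq_mk (D := D)).1 (ha.symm.trans he)
  refine ⟨d⁻¹ • s', ?_, ?_⟩
  · rw [mk_twist_cut, smul_inv_smul]
    exact hb
  · rw [mk_twist_cut, smul_inv_smul]
    exact hc

/-- 5.3: `Sp a b c` ==> `a = [e]` with `b = [e ∘ push s0 false]`, `c = [e ∘ push s0 true]`  ((S1)+(M3)). -/
theorem adapted1 (H : Hyp D S s0 t0) {a b c : Tile D S} (h : TSp a b c) :
    ∃ e : Chart S, a = mk e ∧ b = mk (e.cut s0 false) ∧ c = mk (e.cut s0 true) := by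
  obtain ⟨e', s', ha, hb, hc⟩ := h
  obtain ⟨d, hd⟩ := H.trans s'
  refine ⟨e'.twist d, ?_, ?_, ?_⟩
  · rw [mk_twist]
    exact ha
  · rw [mk_twist_cut, hd]
    exact hb
  · rw [mk_twist_cut, hd]
    exact hc

/-- 5.3: two different cuts of `a` are the cuts along `s0` and `t0` in a suitable chart  ((S2)+(M3)). -/
theorem adapted2 (H : Hyp D S s0 t0) {a b0 b1 c0 c1 : Tile D S} (hb : TSp a b0 b1)
    (hc : TSp a c0 c1) (hne : ¬ (b0 = c0 ∧ b1 = c1)) :
    ∃ e : Chart S, a = mk e ∧ b0 = mk (e.cut s0 false) ∧ b1 = mk (e.cut s0 true) ∧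
      c0 = mk (e.cut t0 false) ∧ c1 = mk (e.cut t0 true) := by
  obtain ⟨e', s, t, ha, hb0, hb1, hc0, hc1⟩ := tsp_same_chart hb hc
  have hst : s ≠ t := by
    intro e
    subst e
    exact hne ⟨hb0.trans hc0.symm, hb1.trans hc1.symm⟩
  obtain ⟨d, hds, hdt⟩ := H.two' hst
  refine ⟨e'.twist d, ?_, ?_, ?_, ?_, ?_⟩
  · rw [mk_twist]
    exact ha
  · rw [mk_twist_cut, hds]
    exact hb0
  · rw [mk_twist_cut, hds]
    exact hb1
  · rw [mk_twist_cut, hdt]
    exact hc0
  · rw [mk_twist_cut, hdt]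
    exact hc1

theorem adp_below_left {a b c : Tile D S} (h : TSp a b c) : supp b ⊆ supp a := by
  rw [← tsp_union h]
  exact Set.subset_union_left

theorem adp_below_right {a b c : Tile D S} (h : TSp a b c) : supp c ⊆ supp a := by
  rw [← tsp_union h]
  exact Set.subset_union_right

/-- the support of a quarter. -/
theorem adp_supp {b c0 c1 q q' : Tile D S} (hd : Disjoint (supp c0) (supp c1)) (h : TSp b q q')
    (k : supp q ⊆ supp c0) (k' : supp q' ⊆ supp c1) : supp q = supp b ∩ supp c0 := by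
  apply Set.eq_of_subset_of_subset
  · intro x hx
    exact ⟨adp_below_left h hx, k hx⟩
  · rintro x ⟨hxb, hxc⟩
    rw [← tsp_union h] at hxb
    rcases hxb with hx | hx
    · exact hx
    · exact absurd (k' hx) (Set.disjoint_left.mp hd hxc)

/-- the model quarter lies in the model half along the other coordinate. -/
theorem adp_model_sub (hst : s0 ≠ t0) (e : Chart S) (k i : Bool) :
    supp (mk ((e.cut s0 k).cut t0 i) : Tile D S) ⊆ supp (mk (e.cut t0 i) : Tile D S) := by
  rw [supp_mk, supp_mk]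
  rintro _ ⟨x, rfl⟩
  refine ⟨push s0 k x, ?_⟩
  show e (push t0 i (push s0 k x)) = e (push s0 k (push t0 i x))
  rw [push_comm hst]

/-- 5.3: the whole hexagon datum in an adapted chart; the `q`'s are forced by (A4) (`tsp_unique`; the supports of the
quarters are given by `CutSys.cross_supp` applied to `cutSys D S`, or directly).  Note that `(b0,b1) ≠ (c0,c1)` is automatic:
otherwise `q01` would be below `b0` and below `c1 = b1`. -/
theorem adapted_hx [Nonempty S] (H : Hyp D S s0 t0) {a b0 b1 c0 c1 q00 q01 q10 q11 : Tile D S}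
    (hb : TSp a b0 b1) (hc : TSp a c0 c1) (h0 : TSp b0 q00 q01) (h1 : TSp b1 q10 q11)
    (k0 : TSp c0 q00 q10) (k1 : TSp c1 q01 q11) :
    ∃ e : Chart S, a = mk e ∧ b0 = mk (e.cut s0 false) ∧ b1 = mk (e.cut s0 true) ∧
      c0 = mk (e.cut t0 false) ∧ c1 = mk (e.cut t0 true) ∧
      q00 = mk ((e.cut s0 false).cut t0 false) ∧ q01 = mk ((e.cut s0 false).cut t0 true) ∧
      q10 = mk ((e.cut s0 true).cut t0 false) ∧ q11 = mk ((e.cut s0 true).cut t0 true) := by
  have hne : ¬ (b0 = c0 ∧ b1 = c1) := by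
    rintro ⟨-, e1⟩
    obtain ⟨x, hx⟩ := supp_nonempty q01
    have hx0 : x ∈ supp b0 := adp_below_right h0 hx
    have hx1 : x ∈ supp b1 := by
      rw [e1]
      exact adp_below_left k1 hx
    exact Set.disjoint_left.mp (tsp_disjoint hb) hx0 hx1
  obtain ⟨e, ha, hb0, hb1, hc0, hc1⟩ := adapted2 H hb hc hne
  have hd : Disjoint (supp c0) (supp c1) := tsp_disjoint hc
  have H0 : TSp b0 (mk ((e.cut s0 false).cut t0 false)) (mk ((e.cut s0 false).cut t0 true)) :=
    ⟨e.cut s0 false, t0, hb0, rfl, rfl⟩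
  have H1 : TSp b1 (mk ((e.cut s0 true).cut t0 false)) (mk ((e.cut s0 true).cut t0 true)) :=
    ⟨e.cut s0 true, t0, hb1, rfl, rfl⟩
  have sub : ∀ k : Bool, supp (mk ((e.cut s0 k).cut t0 false) : Tile D S) ⊆ supp c0 := by
    intro k
    rw [hc0]
    exact adp_model_sub H.ne e k false
  have sub' : ∀ k : Bool, supp (mk ((e.cut s0 k).cut t0 true) : Tile D S) ⊆ supp c1 := by
    intro k
    rw [hc1]
    exact adp_model_sub H.ne e k true
  have s00 : supp q00 = supp (mk ((e.cut s0 false).cut t0 false) : Tile D S) :=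
    (adp_supp hd h0 (adp_below_left k0) (adp_below_left k1)).trans
      (adp_supp hd H0 (sub false) (sub' false)).symm
  have s10 : supp q10 = supp (mk ((e.cut s0 true).cut t0 false) : Tile D S) :=
    (adp_supp hd h1 (adp_below_right k0) (adp_below_right k1)).trans
      (adp_supp hd H1 (sub true) (sub' true)).symm
  obtain ⟨e00, e01⟩ := tsp_unique h0 H0 s00
  obtain ⟨e10, e11⟩ := tsp_unique h1 H1 s10
  exact ⟨e, ha, hb0, hb1, hc0, hc1, e00, e01, e10, e11⟩

end Claimed.Agent.R152.B
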