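import Mathlib

/-!
# Row 152, module B, sec. 5: the cube `S → ℕ → Bool`, `push`, `pop`, `tw`  ((M1)-(M4))

Blueprint: `docs/R152_B.md` (branch `helper22`), sec. 5.  Architect: helper578.
`D` is a group acting on `S`.  Statements and definitions are FROZEN; auxiliary lemmas are welcome.
-/

namespace Claimed.Agent.R152.B

universe u

/-- The cube `CC`. -/
abbrev Cube (S : Type u) : Type u := S → ℕ → Bool

variable {S : Type u}

open Classical in
/-- `push s b` inserts the bit `b` in front of the `s`-th coordinate sequence. -/
noncomputable def push (s : S) (b : Bool) (x : Cube S) : Cube S :=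
  fun t n => if t = s then (if n = 0 then b else x s (n - 1)) else x t n

open Classical in
/-- `pop s` deletes the first bit of the `s`-th coordinate sequence. -/
noncomputable def pop (s : S) (x : Cube S) : Cube S :=
  fun t n => if t = s then x s (n + 1) else x t n

@[simp] theorem push_same_zero (s : S) (b : Bool) (x : Cube S) : push s b x s 0 = b := by
  simp [push]

@[simp] theorem push_same_succ (s : S) (b : Bool) (x : Cube S) (n : ℕ) :
    push s b x s (n + 1) = x s n := by
  simp [push]

theorem push_ne {s t : S} (h : t ≠ s) (b : Bool) (x : Cube S) : push s b x t = x t := by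
  funext n; simp [push, h]

@[simp] theorem pop_same (s : S) (x : Cube S) (n : ℕ) : pop s x s n = x s (n + 1) := by
  simp [pop]

theorem pop_ne {s t : S} (h : t ≠ s) (x : Cube S) : pop s x t = x t := by
  funext n; simp [pop, h]

@[simp] theorem pop_push (s : S) (b : Bool) (x : Cube S) : pop s (push s b x) = x := by
  funext t
  by_cases h : t = s
  · subst h
    funext n
    simp
  · rw [pop_ne h, push_ne h]

theorem push_pop (s : S) (x : Cube S) : push s (x s 0) (pop s x) = x := by
  funext t
  by_cases h : t = s
  · subst h
    funext n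
    cases n with
    | zero => simp
    | succ n => simp
  · rw [push_ne h, pop_ne h]

/-- (M1) -/
theorem push_injective (s : S) (b : Bool) : Function.Injective (push s b) := by
  intro x y h
  have := congrArg (pop s) h
  simpa using this

/-- (M1) -/
theorem range_push (s : S) (b : Bool) : Set.range (push s b) = {x : Cube S | x s 0 = b} := by
  ext x
  constructor
  · rintro ⟨y, rfl⟩
    exact push_same_zero s b y
  · intro h
    have h' : x s 0 = b := h
    exact ⟨pop s x, by rw [← h', push_pop]⟩

/-- (M2) -/
theorem push_comm {s t : S} (h : s ≠ t) (b c : Bool) (x : Cube S) :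
    push s b (push t c x) = push t c (push s b x) := by
  funext u
  by_cases hs : u = s
  · subst hs
    rw [push_ne h c]
    funext n
    cases n with
    | zero => simp
    | succ n => rw [push_same_succ, push_same_succ, push_ne h c]
  · rw [push_ne hs b]
    by_cases ht : u = t
    · subst ht
      funext n
      cases n with
      | zero => simp
      | succ n => rw [push_same_succ, push_same_succ, push_ne hs b]
    · rw [push_ne ht c, push_ne ht c, push_ne hs b]

/-- (M4) -/
theorem eq_of_range_push_eq {s t : S} {b : Bool}
    (h : Set.range (push s b) = Set.range (push t b)) : s = t := by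
  classical
  by_contra hst
  rw [range_push, range_push] at h
  have hx : (fun (u : S) (_ : ℕ) => if u = s then b else !b) ∈ {x : Cube S | x s 0 = b} := by
    show (if s = s then b else !b) = b
    rw [if_pos rfl]
  rw [h] at hx
  have hx' : (if t = s then b else !b) = b := hx
  rw [if_neg (fun e => hst e.symm)] at hx'
  cases b <;> simp at hx'

variable {D : Type u} [Group D] [MulAction D S]

/-- The twist: `(tw c x) s = x (c⁻¹ • s)`. -/
def tw : D →* Equiv.Perm (Cube S) where
  toFun c :=
    { toFun := fun x s => x (c⁻¹ • s)
      invFun := fun x s => x (c • s)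
      left_inv := by intro x; funext s; simp
      right_inv := by intro x; funext s; simp }
  map_one' := by ext x; simp
  map_mul' := by intro c d; ext x; simp [mul_smul]

@[simp] theorem tw_apply (c : D) (x : Cube S) (s : S) : tw c x s = x (c⁻¹ • s) := rfl

/-- (M3) -/
theorem tw_push (c : D) (s : S) (b : Bool) (x : Cube S) :
    tw c (push s b x) = push (c • s) b (tw c x) := by
  funext t
  by_cases h : t = c • s
  · subst h
    funext n
    rw [tw_apply, inv_smul_smul]
    cases n with
    | zero => simp
    | succ n => rw [push_same_succ, push_same_succ, tw_apply, inv_smul_smul]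
  · have h' : c⁻¹ • t ≠ s := fun e => h (by rw [← e, smul_inv_smul])
    rw [tw_apply, push_ne h', push_ne h, tw_apply]

/-- `tw` is injective if the action is faithful (S3). -/
theorem tw_injective (hf : ∀ c : D, (∀ s : S, c • s = s) → c = 1) :
    Function.Injective (tw : D →* Equiv.Perm (Cube S)) := by
  classical
  rw [injective_iff_map_eq_one]
  intro c hc
  refine hf c fun s => ?_
  have h1 : tw c (fun (u : S) (_ : ℕ) => decide (u = s)) s 0
      = (fun (u : S) (_ : ℕ) => decide (u = s)) s 0 := by
    rw [hc]
    rfl
  rw [tw_apply] at h1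
  have h2 : c⁻¹ • s = s := by simpa using h1
  rw [inv_smul_eq_iff] at h2
  exact h2.symm

/-- The standing hypotheses (S1)-(S4) on the action of `D` on `S` with base points `s0 ≠ t0`. -/
structure Hyp (D : Type u) [Group D] (S : Type u) [MulAction D S] (s0 t0 : S) : Prop where
  ne : s0 ≠ t0
  /-- (S2) -/
  two : ∀ s t : S, s ≠ t → ∃ c : D, c • s = s0 ∧ c • t = t0
  /-- (S3) -/
  faithful : ∀ c : D, (∀ s : S, c • s = s) → c = 1
  /-- (S4) -/
  gen : Subgroup.closure {c : D | ∃ s : S, c • s = s} = ⊤

/-- (S1) -/
theorem Hyp.trans {s0 t0 : S} (H : Hyp D S s0 t0) (s : S) : ∃ c : D, c • s0 = s := by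
  by_cases h : s = t0
  · obtain ⟨c, hc, -⟩ := H.two s s0 (by rw [h]; exact H.ne.symm)
    exact ⟨c⁻¹, by rw [inv_smul_eq_iff, hc]⟩
  · obtain ⟨c, hc, -⟩ := H.two s t0 h
    exact ⟨c⁻¹, by rw [inv_smul_eq_iff, hc]⟩

/-- (S2), second form. -/
theorem Hyp.two' {s0 t0 : S} (H : Hyp D S s0 t0) {s t : S} (h : s ≠ t) :
    ∃ c : D, c • s0 = s ∧ c • t0 = t := by
  obtain ⟨c, hc, hc'⟩ := H.two s t h
  exact ⟨c⁻¹, by rw [inv_smul_eq_iff, hc], by rw [inv_smul_eq_iff, hc']⟩

end Claimed.Agent.R152.B
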