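import Claimed.Agent.R152.B.Model.Stab
import Claimed.Agent.R152.B.Model.Adapted
import Claimed.Agent.R152.B.FgExt

/-!
# Row 152, module B, sec. 5.6: edge stabilisers are finitely generated

Black boxes: `Model/Tile.lean`, `Model/Stab.lean`, `Model/Adapted.lean` (`tsp_chart`), `Model/PermRep.lean`, `FpProd.lean` (`fg_of_exact_finite`).
Statements FROZEN; auxiliary lemmas welcome.
-/

open Pointwise

namespace Claimed.Agent.R152.B

universe u
variable {D : Type u} [Group D] {S : Type u} [MulAction D S] [Nonempty S] {s0 t0 : S}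

theorem edge_fg_map {G G' : Type*} [Group G] [Group G'] {P : Subgroup G} (h : P.FG) (e : G →* G') :
    (P.map e).FG := by
  obtain ⟨T, hT, hfin⟩ := (Subgroup.fg_iff P).1 h
  refine (Subgroup.fg_iff _).2 ⟨e '' T, ?_, hfin.image _⟩
  rw [← MonoidHom.map_closure, hT]

/-- All point stabilisers are conjugate to `Stab(s0)` (S1), hence f.g.
(`MulAction.stabilizer_smul_eq_stabilizer_map_conj`, `Subgroup.FG.map`.) -/
theorem stabilizer_fg (H : Hyp D S s0 t0) (hL : (MulAction.stabilizer D s0).FG) (s : S) :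
    (MulAction.stabilizer D s).FG := by
  obtain ⟨c, rfl⟩ := H.trans s
  rw [MulAction.stabilizer_smul_eq_stabilizer_map_conj]
  exact edge_fg_map hL _

/-- a permutation fixing every element of a finset fixes the finset -/
theorem edge_smul_finset_eq {G α : Type*} [Group G] [MulAction G α] [DecidableEq α] {g : G}
    {R : Finset α} (h : ∀ t ∈ R, g • t = t) : g • R = R := by
  ext t
  rw [Finset.mem_smul_finset]
  constructor
  · rintro ⟨y, hy, rfl⟩
    rw [h y hy]; exact hy
  · intro ht
    exact ⟨t, ht, h t ht⟩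

/-- action of a twist on a half of a tile of `x` -/
theorem edge_twist_cut {x : Finset (Tile D S)} (hx : (cutSys D S).IsPart x) (c : ↥x → D)
    (a : ↥x) (s : S) (β : Bool) :
    twistHom x hx c • (Tile.mk ((a : Tile D S).out.cut s β) : Tile D S)
      = Tile.mk ((a : Tile D S).out.cut (c a • s) β) := by
  rw [Tile.smul_mk, ← Tile.mk_twist_cut]
  congr 1
  ext p
  simp only [Chart.act_apply, Chart.cut_apply, Chart.twist_apply]
  rw [twistHom_apply]

/-- the two halves `[e.cut s β]`, `[e.cut s' β]` agree only if `s = s'` -/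
theorem edge_cut_inj {e : Chart S} {s s' : S} {β : Bool}
    (h : (Tile.mk (e.cut s' β) : Tile D S) = Tile.mk (e.cut s β)) : s' = s := by
  have h1 : (e.cut s' β).rg = (e.cut s β).rg := by
    have := congrArg Tile.supp h
    simpa using this
  apply eq_of_range_push_eq (b := β)
  apply Set.eq_of_subset_of_subset
  · rintro _ ⟨p, rfl⟩
    have : e (push s' β p) ∈ (e.cut s β).rg := by
      rw [← h1]; exact ⟨p, rfl⟩
    obtain ⟨q, hq⟩ := this
    exact ⟨q, e.inj hq⟩
  · rintro _ ⟨p, rfl⟩
    have : e (push s β p) ∈ (e.cut s' β).rg := by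
      rw [h1]; exact ⟨p, rfl⟩
    obtain ⟨q, hq⟩ := this
    exact ⟨q, e.inj hq⟩

open Classical in
/-- `(l, c) ↦ c[a ↦ l]` as a homomorphism -/
noncomputable def edgeUpd {ι : Type u} (a : ι) (L : Subgroup D) : (↥L × (ι → D)) →* (ι → D) where
  toFun q := fun j => if j = a then (q.1 : D) else q.2 j
  map_one' := by
    funext j
    by_cases hj : j = a <;> simp [hj]
  map_mul' q q' := by
    funext j
    by_cases hj : j = a <;> simp [hj]

theorem edgeUpd_same {ι : Type u} (a : ι) (L : Subgroup D) (q : ↥L × (ι → D)) :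
    edgeUpd a L q a = (q.1 : D) := by
  simp [edgeUpd]

theorem edgeUpd_self {ι : Type u} (a : ι) (L : Subgroup D) (c : ι → D) (h : c a ∈ L) :
    edgeUpd a L (⟨c a, h⟩, c) = c := by
  funext j
  by_cases hj : j = a
  · subst hj; simp [edgeUpd]
  · simp [edgeUpd, hj]

/-- **5.6**  `E = Stab(x) ⊓ Stab(y)` is f.g. for an edge `Exp x y`.
`x = insert a R`, `y = insert b (insert c R)`, `e := Tile.out a`, `b = [e.cut s false]`, `c = [e.cut s true]` (`tsp_chart`).
Use `fg_of_exact_finite` with `G = ↥E`, `Q = Perm ↥y`, `p = stabPerm y` (restricted to `E`),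
`A = ↥(stabilizer D s) × (↥x → D)` (f.g.: `stabilizer_fg`, Mathlib instances for `Prod`, `Pi`),
`i (l, c) = twistHom x (Function.update c ⟨a,_⟩ l)`; it fixes every tile of `x`, and `b`, `c`, because
`[e ∘ tw l ∘ push s β] = [e ∘ push (l • s) β] = [e ∘ push s β]` (`Tile.mk_twist_cut`).
`ker p ≤ range i`: `g ∈ ker p` fixes `b`, `c` and the tiles of `R`; `g • x = x` then forces `g • a = a`; so `g = twistHom x c'`
(`exists_twistHom_eq`); `g • b = b` gives `[e.cut (c'_a • s) false] = [e.cut s false]`, equal supports, so `c'_a • s = s`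
(`eq_of_range_push_eq`, injectivity of `e`). -/
theorem edge_fg (H : Hyp D S s0 t0) [Group.FG D] (hL : (MulAction.stabilizer D s0).FG)
    {x y : Finset (Tile D S)} (hx : x ∈ KK D S) (h : (cutSys D S).Exp x y) :
    (MulAction.stabilizer (Gam D S) x ⊓ MulAction.stabilizer (Gam D S) y).FG := by
  have hxP : (cutSys D S).IsPart x := KK_isPart hx
  obtain ⟨a, ha, b, c, hsp, hbx, hcx, hy⟩ := h
  obtain ⟨s, hb, hc⟩ := tsp_chart (D := D) (e := Tile.out a) hsp (Tile.mk_out a).symm
  have hy' : y = insert b (insert c (x.erase a)) := hy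
  set a₀ : ↥x := ⟨a, ha⟩ with ha₀
  set L : Subgroup D := MulAction.stabilizer D s with hLdef
  have : Group.FG ↥L := (Group.fg_iff_subgroup_fg L).2 (stabilizer_fg H hL s)
  set E : Subgroup ↥(Gam D S) :=
    MulAction.stabilizer (Gam D S) x ⊓ MulAction.stabilizer (Gam D S) y with hE
  rw [← Group.fg_iff_subgroup_fg]
  -- the twists
  let j : (↥L × (↥x → D)) →* Equiv.Perm (Cube S) := (twistHom x hxP).comp (edgeUpd a₀ L)
  have hjx : ∀ q, ∀ t ∈ x, j q • t = t := fun q t ht => twistHom_smul hxP _ ht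
  have hjcut : ∀ q (β : Bool), j q • (Tile.mk ((Tile.out a).cut s β) : Tile D S)
      = Tile.mk ((Tile.out a).cut s β) := by
    intro q β
    have h1 := edge_twist_cut hxP (edgeUpd a₀ L q) a₀ s β
    rw [edgeUpd_same] at h1
    have h2 : (q.1 : D) • s = s := q.1.2
    rw [h2] at h1
    exact h1
  have hjy : ∀ q, ∀ t ∈ y, j q • t = t := by
    intro q t ht
    rw [hy', Finset.mem_insert, Finset.mem_insert, Finset.mem_erase] at ht
    rcases ht with rfl | rfl | ⟨-, ht⟩
    · rw [hb]; exact hjcut q false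
    · rw [hc]; exact hjcut q true
    · exact hjx q t ht
  let k : (↥L × (↥x → D)) →* ↥(Gam D S) :=
    j.codRestrict (Gam D S) (fun q => twistHom_mem_Gam hx _)
  have hkE : ∀ q, k q ∈ E := by
    intro q
    refine Subgroup.mem_inf.2 ⟨MulAction.mem_stabilizer_iff.2 ?_, MulAction.mem_stabilizer_iff.2 ?_⟩
    · exact edge_smul_finset_eq (g := j q) (hjx q)
    · exact edge_smul_finset_eq (g := j q) (hjy q)
  let i : (↥L × (↥x → D)) →* ↥E := k.codRestrict E hkE
  let p : ↥E →* Equiv.Perm ↥y :=
    (stabPerm (G := ↥(Gam D S)) y).comp (Subgroup.inclusion inf_le_right)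
  refine fg_of_exact_finite i p ?_
  intro g hg
  have hg1 : (Subgroup.inclusion (inf_le_right : E ≤ MulAction.stabilizer (Gam D S) y) g)
      ∈ (stabPerm (G := ↥(Gam D S)) y).ker := hg
  rw [mem_ker_stabPerm] at hg1
  -- `γ` the underlying permutation
  obtain ⟨γ, hγ⟩ : ∃ γ : Equiv.Perm (Cube S), γ = ((g : ↥(Gam D S)) : Equiv.Perm (Cube S)) :=
    ⟨_, rfl⟩
  have hfy : ∀ t ∈ y, γ • t = t := by
    intro t ht
    rw [hγ]; exact hg1 t ht
  have hgx : γ • x = x := by
    rw [hγ]; exact MulAction.mem_stabilizer_iff.1 g.2.1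
  have hfx : ∀ t ∈ x, γ • t = t := by
    intro t ht
    by_cases hta : t = a
    · subst hta
      have h1 : γ • t ∈ x := smul_mem_of_stab hgx ht
      by_contra hne
      have h2 : γ • t ∈ y := by
        rw [hy', Finset.mem_insert, Finset.mem_insert, Finset.mem_erase]
        exact Or.inr (Or.inr ⟨hne, h1⟩)
      have h3 := hfy _ h2
      exact hne (smul_left_cancel γ h3)
    · apply hfy
      rw [hy', Finset.mem_insert, Finset.mem_insert, Finset.mem_erase]
      exact Or.inr (Or.inr ⟨hta, ht⟩)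
  obtain ⟨c', hc'⟩ := exists_twistHom_eq hxP hfx
  have hbfix : γ • b = b := hfy b (by rw [hy']; exact Finset.mem_insert_self _ _)
  have hl : c' a₀ ∈ L := by
    rw [hLdef, MulAction.mem_stabilizer_iff]
    have h1 := edge_twist_cut hxP c' a₀ s false
    rw [← hc'] at h1
    have h2 : γ • (Tile.mk ((Tile.out a).cut s false) : Tile D S)
        = Tile.mk ((Tile.out a).cut s false) := by rw [← hb]; exact hbfix
    rw [h2] at h1
    exact edge_cut_inj h1.symm
  refine ⟨(⟨c' a₀, hl⟩, c'), ?_⟩
  apply Subtype.ext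
  apply Subtype.ext
  change twistHom x hxP (edgeUpd a₀ L (⟨c' a₀, hl⟩, c')) = _
  rw [edgeUpd_self, ← hc', hγ]

end Claimed.Agent.R152.B
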