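import Claimed.Agent.R152.B.Model.Trans
import Claimed.Agent.R152.B.F.Setup

/-!
# Row 152, module B, sec. 5.4: the tower `vv n` and `IsTower`

Black boxes: `Model/Tile.lean`, `Model/Trans.lean`, `Cut/Part.lean`.   Statements FROZEN; auxiliary lemmas welcome.
-/

open Pointwise

namespace Claimed.Agent.R152.B

universe u
variable {D : Type u} [Group D] {S : Type u} [MulAction D S] [Nonempty S] {s0 t0 : S}

/-- The action of the subgroup `Gam` on vertices is the restriction of the action of `Perm (Cube S)`. -/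
theorem Gam_coe_smul (g : Gam D S) (x : Finset (Tile D S)) :
    g • x = (g : Equiv.Perm (Cube S)) • x := rfl

/-- Every vertex of `K` has an expansion (cut any tile along any coordinate). -/
theorem exists_exp {x : Finset (Tile D S)} (hx : x ∈ KK D S) : ∃ y, (cutSys D S).Exp x y := by
  have hP : (cutSys D S).IsPart x := KK_isPart hx
  obtain ⟨a, ha⟩ := hP.nonempty
  obtain ⟨e, he⟩ := Tile.exists_mk a
  obtain ⟨s⟩ := ‹Nonempty S›
  have hsp : (cutSys D S).Sp a (Tile.mk (e.cut s false)) (Tile.mk (e.cut s true)) :=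
    ⟨e, s, he, rfl, rfl⟩
  exact ⟨_, hP.exp_rep ha hsp⟩

variable (D S) in
open Classical in
/-- `vv 0 = {[id]}`, `vv (n+1)` = a chosen expansion of `vv n`. -/
noncomputable def vv : ℕ → Finset (Tile D S)
  | 0 => base D S
  | n + 1 => if h : ∃ y, (cutSys D S).Exp (vv n) y then h.choose else vv n

theorem vv_zero : vv D S 0 = base D S := rfl

open Classical in
theorem tower_vv_succ (n : ℕ) (h : vv D S n ∈ KK D S) :
    (cutSys D S).Exp (vv D S n) (vv D S (n + 1)) := by
  have hex := exists_exp h
  have e : vv D S (n + 1) = hex.choose := by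
    show (if h : ∃ y, (cutSys D S).Exp (vv D S n) y then h.choose else vv D S n) = _
    rw [dif_pos hex]
  rw [e]
  exact hex.choose_spec

theorem vv_mem (n : ℕ) : vv D S n ∈ KK D S := by
  induction n with
  | zero => exact CutSys.K_base _
  | succ n ih => exact CutSys.K_exp ih (tower_vv_succ n ih)

theorem vv_exp (n : ℕ) : (cutSys D S).Exp (vv D S n) (vv D S (n + 1)) := by
  exact tower_vv_succ n (vv_mem n)

theorem vv_card (n : ℕ) : (vv D S n).card = n + 1 := by
  induction n with
  | zero => exact Finset.card_singleton _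
  | succ n ih => rw [(vv_exp n).card, ih]

/-- **5.4**: the hypotheses of sec. 4 hold for `Gam` acting on the tiles. -/
theorem isTower (H : Hyp D S s0 t0) : CutSys.IsTower (cutSys D S) (Gam D S) (vv D S) := by
  refine
    { part0 := base_isPart
      card := vv_card
      exp := vv_exp
      act_sp := fun g {a b c} h => Tile.tsp_smul (g : Equiv.Perm (Cube S)) h
      act_part := fun g {x} h => smul_isPart (g : Equiv.Perm (Cube S)) h
      act_K := fun g => g.2
      T0 := ?_
      T1 := ?_
      T2 := ?_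
      T3 := ?_ }
  · intro n x hx hc
    obtain ⟨g, hg, h1⟩ := trans_vertex (vv_mem n) hx ((vv_card n).trans hc.symm)
    exact ⟨⟨g, hg⟩, h1⟩
  · intro n x hx
    obtain ⟨g, hg, h1, h2⟩ := trans_exp H (vv_mem n) (vv_exp n) hx
    exact ⟨⟨g, hg⟩, h1, h2⟩
  · intro n x y z x' y' z' h h'
    obtain ⟨g, hg, h1, h2, h3, h4⟩ := trans_sq H (vv_mem n) h h'
    exact ⟨⟨g, hg⟩, h1, h2, h3, h4⟩
  · intro n x1 x2 y1 y2 z x1' x2' y1' y2' z' h h'
    obtain ⟨g, hg, h1, h2, h3, h4, h5, h6⟩ := trans_hx H (vv_mem n) h h'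
    exact ⟨⟨g, hg⟩, h1, h2, h3, h4, h5, h6⟩

end Claimed.Agent.R152.B
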