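import Claimed.Agent.R152.B.Model.Edge
import Claimed.Agent.R152.B.Model.Tower
import Claimed.Agent.R152.B.F.Fp

/-!
# Row 152, module B, sec. 5.7: `Gam` is finitely presented; `D` embeds in `Gam`
-/

open Pointwise

namespace Claimed.Agent.R152.B

universe u
variable {D : Type u} [Group D] {S : Type u} [MulAction D S] [Nonempty S] {s0 t0 : S}

/-- a finitely presented group is finitely generated -/
theorem fg_of_fp (G : Type u) [Group G] [h : Group.IsFinitelyPresented G] : Group.FG G := by
  obtain ⟨n, φ, hφ, -⟩ := h.out
  exact Group.fg_of_surjective hφ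

/-- **5.7** -/
theorem Gam_fp (H : Hyp D S s0 t0) [Group.IsFinitelyPresented D]
    (hL : (MulAction.stabilizer D s0).FG) : Group.IsFinitelyPresented (Gam D S) := by
  have : Group.FG D := fg_of_fp D
  exact CutSys.fp_of_tower (isTower H) (N := 9) le_rfl
    (fun n _ => stab_fp H.faithful (vv_mem n))
    (fun n _ => edge_fg H hL (vv_mem n) (vv_exp n))

/-- `tw c` fixes the vertex `{[id]}`. -/
theorem tw_mem_Gam (c : D) : (tw c : Equiv.Perm (Cube S)) ∈ Gam D S := by
  rw [mem_Gam]
  have h : (tw c : Equiv.Perm (Cube S)) • base D S = base D S := by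
    unfold base
    rw [Finset.smul_finset_singleton, Tile.smul_mk]
    congr 1
    have e : Chart.act (tw c : Equiv.Perm (Cube S)) (Chart.id S) = (Chart.id S).twist c := by
      ext x
      simp
    rw [e, Tile.mk_twist]
  rw [h]
  exact Relation.ReflTransGen.refl

variable (D S) in
/-- The embedding `D → Gam`. -/
noncomputable def twGam : D →* Gam D S :=
  (tw : D →* Equiv.Perm (Cube S)).codRestrict (Gam D S) tw_mem_Gam

theorem twGam_injective (H : Hyp D S s0 t0) : Function.Injective (twGam D S) := by
  intro c d h
  apply tw_injective (S := S) H.faithful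
  exact congrArg Subtype.val h

end Claimed.Agent.R152.B
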