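import Claimed.Agent.R152.B.Model.Tile
import Claimed.Agent.R152.B.Cut.Part

/-!
# Row 152, module B, sec. 5.2: GLUING

Black boxes: `Model/Cube.lean`, `Model/Tile.lean`, `Cut/Part.lean`.   Statements FROZEN; auxiliary lemmas welcome.
A partition `x` with charts `E a` (`[E a] = a`, `a ∈ x`) identifies `Σ a ∈ x, Cube S` with `Cube S`.
-/

open Pointwise

namespace Claimed.Agent.R152.B

universe u
variable {D : Type u} [Group D] {S : Type u} [MulAction D S] [Nonempty S]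

theorem smul_mk_eq {g : Equiv.Perm (Cube S)} {e e' : Chart S} (h : ∀ p, g (e p) = e' p) :
    g • (Tile.mk e : Tile D S) = Tile.mk e' := by
  rw [Tile.smul_mk]
  congr 1
  exact Chart.ext h

/-- Every point of the cube lies in the range of the chart of exactly one tile of a partition. -/
theorem exists_chart_point {x : Finset (Tile D S)} (hx : (cutSys D S).IsPart x)
    {E : Tile D S → Chart S} (hE : ∀ a ∈ x, Tile.mk (E a) = a) (q : Cube S) :
    ∃ a ∈ x, ∃ p, E a p = q := by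
  obtain ⟨a, ha, hq⟩ := hx.cover q
  refine ⟨a, ha, ?_⟩
  rw [← hE a ha] at hq
  exact hq

/-- 5.2, uniqueness. -/
theorem glue_unique {x : Finset (Tile D S)} (hx : (cutSys D S).IsPart x)
    {E : Tile D S → Chart S} (hE : ∀ a ∈ x, Tile.mk (E a) = a)
    {g g' : Equiv.Perm (Cube S)} (h : ∀ a ∈ x, ∀ p, g (E a p) = g' (E a p)) : g = g' := by
  refine Equiv.ext fun q => ?_
  obtain ⟨a, ha, p, rfl⟩ := exists_chart_point hx hE q
  exact h a ha p

/-- The charts `E' a` of the tiles `σ a` (`a ∈ x`) of a partition `x' = σ x` identify `x × Cube S` with `Cube S`. -/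
theorem Glue_bijective {x x' : Finset (Tile D S)} (hx' : (cutSys D S).IsPart x')
    (σ : Tile D S → Tile D S) (hσ : Set.BijOn σ ↑x ↑x') (E' : Tile D S → Chart S)
    (hE' : ∀ a ∈ x, Tile.mk (E' a) = σ a) :
    Function.Bijective (fun z : ↥x × Cube S => E' z.1 z.2) := by
  constructor
  · rintro ⟨⟨a, ha⟩, p⟩ ⟨⟨b, hb⟩, p'⟩ h
    have h' : E' a p = E' b p' := h
    have hsa : E' a p ∈ (cutSys D S).supp (σ a) := by
      rw [← hE' a ha]; exact ⟨p, rfl⟩
    have hsb : E' a p ∈ (cutSys D S).supp (σ b) := by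
      rw [← hE' b hb, h']; exact ⟨p', rfl⟩
    have hab : σ a = σ b := hx'.eq_of_not_disjoint (hσ.mapsTo ha) (hσ.mapsTo hb)
      (fun hd => Set.disjoint_left.mp hd hsa hsb)
    have hab' : a = b := hσ.injOn ha hb hab
    subst hab'
    have hp := (E' a).inj h'
    subst hp
    rfl
  · intro q
    obtain ⟨t, ht, hq⟩ := hx'.cover q
    obtain ⟨a, ha, rfl⟩ := hσ.surjOn ht
    rw [← hE' a ha] at hq
    obtain ⟨p, hp⟩ := hq
    exact ⟨⟨⟨a, ha⟩, p⟩, hp⟩

/-- **5.2 GLUING.**  `x`, `x'` partitions, `σ : x → x'` a bijection, `E a` a chart of `a`, `E' a` a chart of `σ a` (`a ∈ x`)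
==> there is `g ∈ Perm (Cube S)` with `g ∘ E a = E' a`.
(The maps `(a,p) ↦ E a p` and `(a,p) ↦ E' a p` are bijections `(Σ a : ↥x, Cube S) → Cube S`.) -/
theorem exists_glue {x x' : Finset (Tile D S)} (hx : (cutSys D S).IsPart x)
    (hx' : (cutSys D S).IsPart x') (σ : Tile D S → Tile D S) (hσ : Set.BijOn σ ↑x ↑x')
    (E E' : Tile D S → Chart S) (hE : ∀ a ∈ x, Tile.mk (E a) = a)
    (hE' : ∀ a ∈ x, Tile.mk (E' a) = σ a) :
    ∃ g : Equiv.Perm (Cube S), (∀ a ∈ x, ∀ p, g (E a p) = E' a p) ∧ (∀ a ∈ x, g • a = σ a) ∧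
      g • x = x' := by
  have hF := Glue_bijective hx id (Set.bijOn_id _) E hE
  have hF' := Glue_bijective hx' σ hσ E' hE'
  let g : Equiv.Perm (Cube S) := (Equiv.ofBijective _ hF).symm.trans (Equiv.ofBijective _ hF')
  have h1 : ∀ a ∈ x, ∀ p, g (E a p) = E' a p := by
    intro a ha p
    have e : (Equiv.ofBijective _ hF).symm (E a p) = (⟨⟨a, ha⟩, p⟩ : ↥x × Cube S) :=
      (Equiv.symm_apply_eq _).2 rfl
    show (Equiv.ofBijective _ hF') ((Equiv.ofBijective _ hF).symm (E a p)) = E' a p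
    rw [e]
    rfl
  have h2 : ∀ a ∈ x, g • a = σ a := by
    intro a ha
    have h3 := smul_mk_eq (D := D) (h1 a ha)
    rwa [hE a ha, hE' a ha] at h3
  refine ⟨g, h1, h2, ?_⟩
  ext t
  rw [Finset.mem_smul_finset]
  constructor
  · rintro ⟨a, ha, rfl⟩
    rw [h2 a ha]
    exact hσ.mapsTo ha
  · intro ht
    obtain ⟨a, ha, rfl⟩ := hσ.surjOn ht
    exact ⟨a, ha, h2 a ha⟩

/-- **5.4 core.**  `x, x' ∈ K` with the same number of tiles; on a subset `A ⊆ x` an injection `σ : A → x'` and charts are prescribed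
==> there is `g ∈ Gam` with `g • x = x'` and `g ∘ E a = E' a` for `a ∈ A`.
(Extend `σ` to a bijection `x → x'` (`|x \ A| = |x' \ σ A|`), use `Tile.out` for the other tiles, `exists_glue`, `mem_Gam_of_smul`.) -/
theorem exists_glue_ext {x x' : Finset (Tile D S)} (hx : x ∈ KK D S) (hx' : x' ∈ KK D S)
    (hcard : x.card = x'.card) (A : Finset (Tile D S)) (hA : A ⊆ x)
    (σ : Tile D S → Tile D S) (hσ : Set.InjOn σ ↑A) (hσx : ∀ a ∈ A, σ a ∈ x')
    (E E' : Tile D S → Chart S) (hE : ∀ a ∈ A, Tile.mk (E a) = a)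
    (hE' : ∀ a ∈ A, Tile.mk (E' a) = σ a) :
    ∃ g ∈ Gam D S, g • x = x' ∧ (∀ a ∈ A, ∀ p, g (E a p) = E' a p) ∧ ∀ a ∈ A, g • a = σ a := by
  classical
  -- extend `σ` to a bijection `x → x'`
  obtain ⟨f, hf⟩ := Set.MapsTo.exists_equiv_extend_of_card_eq (α := ↥x) (t := x')
    (by rw [Fintype.card_coe]; exact hcard) (s := {i : ↥x | (i : Tile D S) ∈ A})
    (f := fun i => σ (i : Tile D S)) (fun i hi => hσx _ hi)
    (fun i hi j hj hij => Subtype.ext (hσ hi hj hij))
  let σ' : Tile D S → Tile D S := fun a => if h : a ∈ x then (f ⟨a, h⟩ : Tile D S) else a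
  have hσ'x : ∀ (a : Tile D S) (h : a ∈ x), σ' a = (f ⟨a, h⟩ : Tile D S) := fun a h => dif_pos h
  have hσ'A : ∀ a ∈ A, σ' a = σ a := fun a ha => by
    rw [hσ'x a (hA ha)]; exact hf ⟨a, hA ha⟩ ha
  have hbij : Set.BijOn σ' ↑x ↑x' := by
    refine ⟨?_, ?_, ?_⟩
    · intro a ha
      rw [hσ'x a ha]
      exact (f ⟨a, ha⟩).2
    · intro a ha b hb hab
      rw [hσ'x a ha, hσ'x b hb] at hab
      exact congrArg Subtype.val (f.injective (Subtype.ext hab))
    · intro b hb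
      refine ⟨(f.symm ⟨b, hb⟩ : Tile D S), (f.symm ⟨b, hb⟩).2, ?_⟩
      rw [hσ'x _ (f.symm ⟨b, hb⟩).2]
      simp
  -- charts for all the tiles of `x`
  let E1 : Tile D S → Chart S := fun a => if a ∈ A then E a else Tile.out a
  let E1' : Tile D S → Chart S := fun a => if a ∈ A then E' a else Tile.out (σ' a)
  have hE1A : ∀ a ∈ A, E1 a = E a := fun a ha => if_pos ha
  have hE1'A : ∀ a ∈ A, E1' a = E' a := fun a ha => if_pos ha
  have hE1 : ∀ a ∈ x, Tile.mk (E1 a) = a := by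
    intro a _
    by_cases ha : a ∈ A
    · rw [hE1A a ha]; exact hE a ha
    · show Tile.mk (if a ∈ A then E a else Tile.out a) = a
      rw [if_neg ha]; exact Tile.mk_out a
  have hE1' : ∀ a ∈ x, Tile.mk (E1' a) = σ' a := by
    intro a _
    by_cases ha : a ∈ A
    · rw [hE1'A a ha, hσ'A a ha]; exact hE' a ha
    · show Tile.mk (if a ∈ A then E' a else Tile.out (σ' a)) = σ' a
      rw [if_neg ha]; exact Tile.mk_out _
  obtain ⟨g, hg1, hg2, hg3⟩ := exists_glue (KK_isPart hx) (KK_isPart hx') σ' hbij E1 E1' hE1 hE1'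
  refine ⟨g, mem_Gam_of_smul hx (by rw [hg3]; exact hx'), hg3, ?_, ?_⟩
  · intro a ha p
    have := hg1 a (hA ha) p
    rwa [hE1A a ha, hE1'A a ha] at this
  · intro a ha
    rw [hg2 a (hA ha), hσ'A a ha]

end Claimed.Agent.R152.B
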