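import Mathlib

/-!
# Row 152, module B: the stabiliser of a Finset acts on its elements (general helper, sorry-free)
-/

open Pointwise

namespace Claimed.Agent.R152.B

variable {G α : Type*} [Group G] [MulAction G α] [DecidableEq α]

theorem smul_mem_of_stab {x : Finset α} {g : G} (hg : g • x = x) {a : α} (ha : a ∈ x) :
    g • a ∈ x := by
  have h : g • a ∈ g • x := Finset.smul_mem_smul_finset ha
  rwa [hg] at h

theorem inv_smul_eq_of_stab {x : Finset α} {g : G} (hg : g • x = x) : g⁻¹ • x = x := by
  rw [inv_smul_eq_iff, hg]

/-- The permutation representation of the stabiliser of a Finset on its elements. -/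
def stabPerm (x : Finset α) : MulAction.stabilizer G x →* Equiv.Perm ↥x where
  toFun g :=
    { toFun := fun a => ⟨(g : G) • (a : α), smul_mem_of_stab (MulAction.mem_stabilizer_iff.1 g.2) a.2⟩
      invFun := fun a => ⟨(g : G)⁻¹ • (a : α),
        smul_mem_of_stab (inv_smul_eq_of_stab (MulAction.mem_stabilizer_iff.1 g.2)) a.2⟩
      left_inv := by intro a; ext; simp
      right_inv := by intro a; ext; simp }
  map_one' := by ext a; simp
  map_mul' := by intro g h; ext a; simp [mul_smul]

@[simp] theorem stabPerm_apply (x : Finset α) (g : MulAction.stabilizer G x) (a : ↥x) :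
    ((stabPerm x g a : ↥x) : α) = (g : G) • (a : α) := rfl

theorem mem_ker_stabPerm {x : Finset α} {g : MulAction.stabilizer G x} :
    g ∈ (stabPerm x).ker ↔ ∀ a ∈ x, (g : G) • a = a := by
  rw [MonoidHom.mem_ker]
  constructor
  · intro h a ha
    have := congrArg (fun σ : Equiv.Perm ↥x => ((σ ⟨a, ha⟩ : ↥x) : α)) h
    simpa using this
  · intro h
    ext a
    simpa using h a a.2

end Claimed.Agent.R152.B
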