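import Claimed.Agent.R152.B.Model.Glue
import Claimed.Agent.R152.B.Model.PermRep
import Claimed.Agent.R152.B.FpProd

/-!
# Row 152, module B, sec. 5.5: vertex stabilisers are finitely presented

Black boxes: `Model/Tile.lean`, `Model/Glue.lean`, `Model/PermRep.lean` (sorry-free), `FpExt.lean`, `FpProd.lean`.
Definitions and statements FROZEN; auxiliary lemmas welcome.
The charts of the tiles of a vertex are the chosen ones, `Tile.out a`.
-/

open Pointwise

namespace Claimed.Agent.R152.B

universe u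
variable {D : Type u} [Group D] {S : Type u} [MulAction D S] [Nonempty S] {s0 t0 : S}

theorem atlas_bijective {x : Finset (Tile D S)} (hx : (cutSys D S).IsPart x) :
    Function.Bijective (fun p : (Σ _ : ↥x, Cube S) => (p.1 : Tile D S).out p.2) := by
  have hsupp : ∀ a : Tile D S, Tile.supp a = (Tile.out a).rg := by
    intro a
    rw [← Tile.supp_mk (D := D), Tile.mk_out]
  constructor
  · rintro ⟨a, p⟩ ⟨b, q⟩ h
    have h' : (a : Tile D S).out p = (b : Tile D S).out q := h
    have hab : a = b := by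
      by_contra hne
      have hne' : (a : Tile D S) ≠ (b : Tile D S) := fun e => hne (Subtype.ext e)
      have hd : Disjoint (Tile.supp (a : Tile D S)) (Tile.supp (b : Tile D S)) :=
        hx.disj a a.2 b b.2 hne'
      rw [hsupp, hsupp, Set.disjoint_left] at hd
      exact hd ⟨p, rfl⟩ ⟨q, h'.symm⟩
    subst hab
    have hpq : p = q := (a : Tile D S).out.inj h'
    rw [hpq]
  · intro q
    obtain ⟨a, ha, p, hp⟩ := exists_chart_point hx (E := Tile.out) (fun a _ => Tile.mk_out a) q
    exact ⟨⟨⟨a, ha⟩, p⟩, hp⟩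

/-- A partition identifies `Σ a ∈ x, Cube S` with `Cube S`. -/
noncomputable def atlasEquiv (x : Finset (Tile D S)) (hx : (cutSys D S).IsPart x) :
    (Σ _ : ↥x, Cube S) ≃ Cube S :=
  Equiv.ofBijective _ (atlas_bijective hx)

/-- `(c_a)_{a ∈ x} ↦` the `g` with `g ∘ e_a = e_a ∘ tw c_a`, `e_a = Tile.out a`. -/
noncomputable def twistHom (x : Finset (Tile D S)) (hx : (cutSys D S).IsPart x) :
    (↥x → D) →* Equiv.Perm (Cube S) :=
  (atlasEquiv x hx).permCongrHom.toMonoidHom.comp
    ((Equiv.Perm.sigmaCongrRightHom (fun _ : ↥x => Cube S)).comp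
      (MonoidHom.pi (fun a : ↥x => (tw : D →* Equiv.Perm (Cube S)).comp (Pi.evalMonoidHom _ a))))

theorem twistHom_apply {x : Finset (Tile D S)} (hx : (cutSys D S).IsPart x) (c : ↥x → D)
    (a : ↥x) (p : Cube S) :
    twistHom x hx c ((a : Tile D S).out p) = (a : Tile D S).out (tw (c a) p) := by
  have h : ∀ q : Cube S, (a : Tile D S).out q = atlasEquiv x hx ⟨a, q⟩ := fun _ => rfl
  rw [h, h]
  simp [twistHom, Equiv.permCongrHom, Equiv.permCongr_apply]

theorem twistHom_injective (hf : ∀ c : D, (∀ s : S, c • s = s) → c = 1)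
    {x : Finset (Tile D S)} (hx : (cutSys D S).IsPart x) :
    Function.Injective (twistHom x hx) := by
  intro c c' h
  funext a
  apply tw_injective hf
  ext1 p
  have h1 := twistHom_apply hx c a p
  have h2 := twistHom_apply hx c' a p
  rw [h, h2] at h1
  exact ((a : Tile D S).out.inj h1).symm

theorem twistHom_smul {x : Finset (Tile D S)} (hx : (cutSys D S).IsPart x) (c : ↥x → D)
    {a : Tile D S} (ha : a ∈ x) : twistHom x hx c • a = a := by
  conv_lhs => rw [← Tile.mk_out a]
  conv_rhs => rw [← Tile.mk_out a]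
  rw [Tile.smul_mk, ← Tile.mk_twist (Tile.out a) (c ⟨a, ha⟩)]
  congr 1
  ext1 p
  exact twistHom_apply hx c ⟨a, ha⟩ p

theorem twistHom_smul_finset {x : Finset (Tile D S)} (hx : (cutSys D S).IsPart x) (c : ↥x → D) :
    twistHom x hx c • x = x := by
  ext b
  rw [Finset.mem_smul_finset]
  constructor
  · rintro ⟨a, ha, rfl⟩
    rw [twistHom_smul hx c ha]
    exact ha
  · intro hb
    exact ⟨b, hb, twistHom_smul hx c hb⟩

theorem twistHom_mem_Gam {x : Finset (Tile D S)} (hx : x ∈ KK D S) (c : ↥x → D) :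
    twistHom x (KK_isPart hx) c ∈ Gam D S := by
  refine mem_Gam_of_smul hx ?_
  rw [twistHom_smul_finset]
  exact hx

/-- A permutation fixing every tile of the partition `x` is a twist. -/
theorem exists_twistHom_eq {x : Finset (Tile D S)} (hx : (cutSys D S).IsPart x)
    {g : Equiv.Perm (Cube S)} (hg : ∀ a ∈ x, g • a = a) : ∃ c : ↥x → D, g = twistHom x hx c := by
  have hc : ∀ a : ↥x, ∃ c : D, Chart.act g (Tile.out (a : Tile D S))
      = (Tile.out (a : Tile D S)).twist c := by
    intro a
    apply Tile.mk_eq_mk.1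
    rw [← Tile.smul_mk, Tile.mk_out]
    exact (hg a a.2).symm
  choose c hc using hc
  refine ⟨c, glue_unique hx (E := Tile.out) (fun a _ => Tile.mk_out a) ?_⟩
  intro a ha p
  rw [twistHom_apply hx c ⟨a, ha⟩ p]
  have := congrArg (fun e : Chart S => e p) (hc ⟨a, ha⟩)
  simpa using this

/-- **5.5**  `Stab(x)` is f.p.:  `1 → D^x → Stab(x) → Perm x`.
Use `fp_of_exact_finite` with `A = (↥x → D)` (`fp_pi`), `G = stabilizer (Gam D S) x`, `Q = Perm ↥x`, `p = stabPerm x`,
`i` = `twistHom` co-restricted to `Gam` and to the stabiliser; `range i = ker p` by `mem_ker_stabPerm`, `exists_twistHom_eq`, `twistHom_smul`. -/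
theorem stab_fp (hf : ∀ c : D, (∀ s : S, c • s = s) → c = 1) [Group.IsFinitelyPresented D]
    {x : Finset (Tile D S)} (hx : x ∈ KK D S) :
    Group.IsFinitelyPresented (MulAction.stabilizer (Gam D S) x) := by
  have hP : (cutSys D S).IsPart x := KK_isPart hx
  -- `twistHom` co-restricted to `Gam` and to the stabiliser
  let i0 : (↥x → D) →* ↥(Gam D S) :=
    (twistHom x hP).codRestrict (Gam D S) (twistHom_mem_Gam hx)
  have hi0 : ∀ c, ((i0 c : ↥(Gam D S)) : Equiv.Perm (Cube S)) = twistHom x hP c := fun _ => rfl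
  have hstab : ∀ c, i0 c ∈ MulAction.stabilizer (↥(Gam D S)) x := by
    intro c
    rw [MulAction.mem_stabilizer_iff]
    exact twistHom_smul_finset hP c
  let i : (↥x → D) →* ↥(MulAction.stabilizer (↥(Gam D S)) x) :=
    i0.codRestrict (MulAction.stabilizer (↥(Gam D S)) x) hstab
  have hi : ∀ c, (((i c : ↥(MulAction.stabilizer (↥(Gam D S)) x)) : ↥(Gam D S)) :
      Equiv.Perm (Cube S)) = twistHom x hP c := fun _ => rfl
  have : Group.IsFinitelyPresented (↥x → D) := fp_pi
  refine fp_of_exact_finite i (stabPerm x) ?_ ?_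
  · intro c c' h
    apply twistHom_injective hf hP
    rw [← hi c, ← hi c', h]
  · ext g
    rw [mem_ker_stabPerm]
    constructor
    · rintro ⟨c, rfl⟩ a ha
      exact twistHom_smul hP c ha
    · intro h
      obtain ⟨c, hc⟩ := exists_twistHom_eq hP
        (g := ((g : ↥(Gam D S)) : Equiv.Perm (Cube S))) (fun a ha => h a ha)
      refine ⟨c, ?_⟩
      apply Subtype.ext
      apply Subtype.ext
      rw [hi c, hc]

end Claimed.Agent.R152.B
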