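import Claimed.Agent.R152.B.Model.Cube
import Claimed.Agent.R152.B.Cut.Part

/-!
# Row 152, module B, sec. 5: charts, tiles, the cut system of the model (5.1), the group `Gam`

CHART = injective map `e : Cube S → Cube S`.  `e ~ e'` iff `e' = e ∘ tw c` for some `c : D`.  TILE = class `[e]`.
`supp [e] = range e`.  `TSp a b c` iff `a = [e]`, `b = [e ∘ push s false]`, `c = [e ∘ push s true]` for some `e`, `s`.
`Perm (Cube S)` acts on tiles by `g • [e] = [g ∘ e]`.
This file contains ALL DEFINITIONS of the model; they are FROZEN, as are the statements.  Auxiliary lemmas are welcome.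
-/

open Pointwise

namespace Claimed.Agent.R152.B

universe u

section charts
variable {S : Type u}

/-- A chart: an injective self-map of the cube. -/
structure Chart (S : Type u) where
  toFun : Cube S → Cube S
  inj : Function.Injective toFun

instance instCoeFunChart : CoeFun (Chart S) (fun _ => Cube S → Cube S) := ⟨Chart.toFun⟩

namespace Chart

@[ext] theorem ext {e e' : Chart S} (h : ∀ x, e x = e' x) : e = e' := by
  cases e; cases e'; congr; funext x; exact h x

/-- The identity chart. -/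
protected def id (S : Type u) : Chart S := ⟨fun x => x, fun _ _ h => h⟩

/-- `e ∘ push s b` -/
noncomputable def cut (e : Chart S) (s : S) (b : Bool) : Chart S :=
  ⟨fun x => e (push s b x), fun _ _ h => push_injective s b (e.inj h)⟩

/-- `g ∘ e` -/
def act (g : Equiv.Perm (Cube S)) (e : Chart S) : Chart S :=
  ⟨fun x => g (e x), fun _ _ h => e.inj (g.injective h)⟩

/-- The range of a chart. -/
def rg (e : Chart S) : Set (Cube S) := Set.range e

@[simp] theorem id_apply (x : Cube S) : Chart.id S x = x := rfl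
@[simp] theorem cut_apply (e : Chart S) (s : S) (b : Bool) (x : Cube S) :
    e.cut s b x = e (push s b x) := rfl
@[simp] theorem act_apply (g : Equiv.Perm (Cube S)) (e : Chart S) (x : Cube S) :
    act g e x = g (e x) := rfl

variable {D : Type u} [Group D] [MulAction D S]

/-- `e ∘ tw c` -/
def twist (e : Chart S) (c : D) : Chart S :=
  ⟨fun x => e (tw c x), fun _ _ h => (tw c).injective (e.inj h)⟩

@[simp] theorem twist_apply (e : Chart S) (c : D) (x : Cube S) : e.twist c x = e (tw c x) := rfl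

end Chart

end charts

variable (D : Type u) [Group D] {S : Type u} [MulAction D S]

/-- `e ~ e'` iff `e' = e ∘ tw c`. -/
def chartSetoid (S : Type u) [MulAction D S] : Setoid (Chart S) where
  r e e' := ∃ c : D, e' = e.twist c
  iseqv :=
    { refl := fun e => ⟨1, by ext x; simp⟩
      symm := by
        rintro e e' ⟨c, rfl⟩
        exact ⟨c⁻¹, by ext x; simp⟩
      trans := by
        rintro e e' e'' ⟨c, rfl⟩ ⟨d, rfl⟩
        exact ⟨c * d, by ext x; simp⟩ }

/-- Tiles. -/
def Tile (S : Type u) [MulAction D S] : Type u := Quotient (chartSetoid D S)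

/-- (the SAME term as the instance found under `open scoped Classical`, which `Cut/Defs.lean`, `Spare/*`, `F/*` use) -/
noncomputable instance instDecidableEqTile : DecidableEq (Tile D S) :=
  fun a b => Classical.propDecidable (a = b)

namespace Tile

variable {D}

/-- The tile `[e]`. -/
def mk (e : Chart S) : Tile D S := Quotient.mk (chartSetoid D S) e

/-- A chosen chart of a tile. -/
noncomputable def out (a : Tile D S) : Chart S := Quotient.out a

@[simp] theorem mk_out (a : Tile D S) : mk (out a) = a := Quotient.out_eq a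

theorem mk_eq_mk {e e' : Chart S} : (mk e : Tile D S) = mk e' ↔ ∃ c : D, e' = e.twist c :=
  Quotient.eq (r := chartSetoid D S)

theorem mk_twist (e : Chart S) (c : D) : (mk (e.twist c) : Tile D S) = mk e :=
  (mk_eq_mk.2 ⟨c, rfl⟩).symm

theorem exists_mk (a : Tile D S) : ∃ e : Chart S, a = mk e := ⟨out a, (mk_out a).symm⟩

/-- `supp [e] = range e`. -/
def supp (a : Tile D S) : Set (Cube S) :=
  Quotient.lift (s := chartSetoid D S) (fun e : Chart S => e.rg) (by
    rintro e e' ⟨c, rfl⟩
    apply Set.eq_of_subset_of_subset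
    · rintro _ ⟨x, rfl⟩
      exact ⟨tw c⁻¹ x, by simp⟩
    · rintro _ ⟨x, rfl⟩
      exact ⟨tw c x, rfl⟩) a

@[simp] theorem supp_mk (e : Chart S) : supp (mk e : Tile D S) = e.rg := rfl

/-- The halving relation. -/
def TSp (a b c : Tile D S) : Prop :=
  ∃ (e : Chart S) (s : S), a = mk e ∧ b = mk (e.cut s false) ∧ c = mk (e.cut s true)

/-- `g • [e] = [g ∘ e]`. -/
def smul (g : Equiv.Perm (Cube S)) (a : Tile D S) : Tile D S :=
  Quotient.map (sa := chartSetoid D S) (sb := chartSetoid D S) (Chart.act g) (by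
    rintro e e' ⟨c, rfl⟩
    exact ⟨c, by ext x; simp⟩) a

instance instMulActionTile : MulAction (Equiv.Perm (Cube S)) (Tile D S) where
  smul := smul
  one_smul a := by
    induction a using Quotient.inductionOn with
    | h e => exact congrArg (Quotient.mk _) (by ext x; simp)
  mul_smul g h a := by
    induction a using Quotient.inductionOn with
    | h e => exact congrArg (Quotient.mk _) (by ext x; simp)

@[simp] theorem smul_mk (g : Equiv.Perm (Cube S)) (e : Chart S) :
    g • (mk e : Tile D S) = mk (Chart.act g e) := rfl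

/-! ### 5.1: the axioms of a cut system -/

theorem supp_nonempty (a : Tile D S) : (supp a).Nonempty := by
  obtain ⟨e, rfl⟩ := exists_mk a
  exact ⟨e (fun _ _ => false), ⟨_, rfl⟩⟩

/-- `[e ∘ tw c ∘ push t b] = [e ∘ push (c • t) b]`  (M3). -/
theorem mk_twist_cut (e : Chart S) (c : D) (t : S) (b : Bool) :
    (mk ((e.twist c).cut t b) : Tile D S) = mk (e.cut (c • t) b) := by
  rw [← mk_twist (e.cut (c • t) b) c]
  congr 1
  ext x
  simp [tw_push]

/-- (A1) -/
theorem tsp_union {a b c : Tile D S} (h : TSp a b c) : supp b ∪ supp c = supp a := by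
  obtain ⟨e, s, rfl, rfl, rfl⟩ := h
  simp only [supp_mk, Chart.rg]
  apply Set.eq_of_subset_of_subset
  · rintro _ (⟨x, rfl⟩ | ⟨x, rfl⟩)
    · exact ⟨push s false x, rfl⟩
    · exact ⟨push s true x, rfl⟩
  · rintro _ ⟨x, rfl⟩
    cases hb : x s 0
    · left
      refine ⟨pop s x, ?_⟩
      rw [Chart.cut_apply, ← hb, push_pop]
    · right
      refine ⟨pop s x, ?_⟩
      rw [Chart.cut_apply, ← hb, push_pop]

/-- (A1) -/
theorem tsp_disjoint {a b c : Tile D S} (h : TSp a b c) : Disjoint (supp b) (supp c) := by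
  obtain ⟨e, s, rfl, rfl, rfl⟩ := h
  simp only [supp_mk, Chart.rg]
  rw [Set.disjoint_left]
  rintro _ ⟨x, rfl⟩ ⟨y, hy⟩
  have h1 : push s true y = push s false x := e.inj hy
  have h2 := congrFun (congrFun h1 s) 0
  simp at h2

/-- Two cuts of the same tile can be written with the same chart (M3). -/
theorem tsp_same_chart {a b0 b1 c0 c1 : Tile D S} (hb : TSp a b0 b1) (hc : TSp a c0 c1) :
    ∃ (e : Chart S) (s t : S), a = mk e ∧ b0 = mk (e.cut s false) ∧ b1 = mk (e.cut s true) ∧
      c0 = mk (e.cut t false) ∧ c1 = mk (e.cut t true) := by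
  obtain ⟨e, s, rfl, rfl, rfl⟩ := hb
  obtain ⟨e', t, he, rfl, rfl⟩ := hc
  obtain ⟨c, rfl⟩ := mk_eq_mk.1 he
  exact ⟨e, s, c • t, rfl, rfl, rfl, mk_twist_cut e c t false, mk_twist_cut e c t true⟩

/-- (A2) CROSS: same chart `e`, coordinates `s ≠ t`, `q_ki = [e ∘ push s k ∘ push t i]` (M2). -/
theorem tsp_cross {a b0 b1 c0 c1 : Tile D S} (hb : TSp a b0 b1) (hc : TSp a c0 c1)
    (hne : ¬ (b0 = c0 ∧ b1 = c1)) :
    ∃ q00 q01 q10 q11, TSp b0 q00 q01 ∧ TSp b1 q10 q11 ∧ TSp c0 q00 q10 ∧ TSp c1 q01 q11 := by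
  obtain ⟨e, s, t, rfl, rfl, rfl, rfl, rfl⟩ := tsp_same_chart hb hc
  have hst : s ≠ t := by
    rintro rfl
    exact hne ⟨rfl, rfl⟩
  have hcomm : ∀ k i : Bool, (e.cut t i).cut s k = (e.cut s k).cut t i := by
    intro k i
    ext x
    simp [push_comm hst k i x]
  refine ⟨mk ((e.cut s false).cut t false), mk ((e.cut s false).cut t true),
    mk ((e.cut s true).cut t false), mk ((e.cut s true).cut t true),
    ⟨e.cut s false, t, rfl, rfl, rfl⟩, ⟨e.cut s true, t, rfl, rfl, rfl⟩,
    ⟨e.cut t false, s, rfl, ?_, ?_⟩, ⟨e.cut t true, s, rfl, ?_, ?_⟩⟩ <;> rw [hcomm]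

/-- (A3) MERGE: `e x := e1 (pop s x)` if `x s 0 = false`, `e2 (pop s x)` otherwise (any `s`). -/
theorem tsp_merge [Nonempty S] {b c : Tile D S} (h : Disjoint (supp b) (supp c)) :
    ∃ a, TSp a b c := by
  obtain ⟨e1, rfl⟩ := exists_mk b
  obtain ⟨e2, rfl⟩ := exists_mk c
  simp only [supp_mk, Chart.rg] at h
  rw [Set.disjoint_left] at h
  obtain ⟨s⟩ := ‹Nonempty S›
  have hinj : Function.Injective
      (fun x : Cube S => if x s 0 = false then e1 (pop s x) else e2 (pop s x)) := by
    intro x y hxy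
    simp only at hxy
    by_cases hx : x s 0 = false
    · by_cases hy : y s 0 = false
      · rw [if_pos hx, if_pos hy] at hxy
        rw [← push_pop s x, ← push_pop s y, e1.inj hxy, hx, hy]
      · rw [if_pos hx, if_neg hy] at hxy
        exact absurd ⟨_, hxy.symm⟩ (h ⟨_, rfl⟩)
    · by_cases hy : y s 0 = false
      · rw [if_neg hx, if_pos hy] at hxy
        exact absurd ⟨_, hxy⟩ (h ⟨_, rfl⟩)
      · rw [if_neg hx, if_neg hy] at hxy
        have hx' : x s 0 = true := by simpa using hx
        have hy' : y s 0 = true := by simpa using hy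
        rw [← push_pop s x, ← push_pop s y, e2.inj hxy, hx', hy']
  refine ⟨mk ⟨_, hinj⟩, ⟨_, hinj⟩, s, rfl, ?_, ?_⟩
  · congr 1
    ext x
    simp
  · congr 1
    ext x
    simp

/-- (A4): same chart, then (M4). -/
theorem tsp_unique {a b c b' c' : Tile D S} (h : TSp a b c) (h' : TSp a b' c')
    (hs : supp b = supp b') : b = b' ∧ c = c' := by
  obtain ⟨e, s, t, rfl, rfl, rfl, rfl, rfl⟩ := tsp_same_chart h h'
  simp only [supp_mk, Chart.rg] at hs
  have hr : Set.range (push s false) = Set.range (push t false) := by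
    apply Set.eq_of_subset_of_subset
    · rintro _ ⟨x, rfl⟩
      have : e (push s false x) ∈ Set.range (e.cut t false) := by
        rw [← hs]
        exact ⟨x, rfl⟩
      obtain ⟨y, hy⟩ := this
      exact ⟨y, e.inj hy⟩
    · rintro _ ⟨x, rfl⟩
      have : e (push t false x) ∈ Set.range (e.cut s false) := by
        rw [hs]
        exact ⟨x, rfl⟩
      obtain ⟨y, hy⟩ := this
      exact ⟨y, e.inj hy⟩
  have hst : s = t := eq_of_range_push_eq hr
  subst hst
  exact ⟨rfl, rfl⟩

/-! ### equivariance -/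

theorem supp_smul (g : Equiv.Perm (Cube S)) (a : Tile D S) : supp (g • a) = g '' supp a := by
  obtain ⟨e, rfl⟩ := exists_mk a
  simp only [smul_mk, supp_mk, Chart.rg]
  apply Set.eq_of_subset_of_subset
  · rintro _ ⟨x, rfl⟩
    exact ⟨e x, ⟨x, rfl⟩, rfl⟩
  · rintro _ ⟨_, ⟨x, rfl⟩, rfl⟩
    exact ⟨x, rfl⟩

theorem tsp_smul (g : Equiv.Perm (Cube S)) {a b c : Tile D S} (h : TSp a b c) :
    TSp (g • a) (g • b) (g • c) := by
  obtain ⟨e, s, rfl, rfl, rfl⟩ := h
  exact ⟨Chart.act g e, s, rfl, rfl, rfl⟩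

end Tile

variable (S)

/-- **5.1** The cut system of the model. -/
noncomputable def cutSys [Nonempty S] : CutSys (Tile D S) (Cube S) where
  supp := Tile.supp
  Sp := Tile.TSp
  supp_nonempty := Tile.supp_nonempty
  sp_union := Tile.tsp_union
  sp_disj := Tile.tsp_disjoint
  cross := Tile.tsp_cross
  merge := Tile.tsp_merge
  sp_unique := Tile.tsp_unique

/-- `v1 = {[id]}` -/
noncomputable def base : Finset (Tile D S) := {Tile.mk (Chart.id S)}

variable [Nonempty S]

/-- The component `K` of `v1`. -/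
noncomputable def KK : Set (Finset (Tile D S)) := (cutSys D S).K (base D S)

variable {D S}

theorem base_isPart : (cutSys D S).IsPart (base D S) := by
  refine ⟨?_, ?_⟩
  · intro s hs t ht hst
    rw [base, Finset.mem_singleton] at hs ht
    exact absurd (hs.trans ht.symm) hst
  · intro x
    exact ⟨Tile.mk (Chart.id S), Finset.mem_singleton_self _, ⟨x, rfl⟩⟩

theorem smul_isPart (g : Equiv.Perm (Cube S)) {x : Finset (Tile D S)}
    (h : (cutSys D S).IsPart x) : (cutSys D S).IsPart (g • x) := by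
  refine ⟨?_, ?_⟩
  · intro s hs t ht hst
    obtain ⟨s', hs', rfl⟩ := Finset.mem_smul_finset.1 hs
    obtain ⟨t', ht', rfl⟩ := Finset.mem_smul_finset.1 ht
    have hne : s' ≠ t' := fun e => hst (by rw [e])
    have hd : Disjoint (Tile.supp s') (Tile.supp t') := h.disj s' hs' t' ht' hne
    show Disjoint (Tile.supp (g • s')) (Tile.supp (g • t'))
    rw [Tile.supp_smul, Tile.supp_smul]
    exact (Set.disjoint_image_iff g.injective).2 hd
  · intro y
    obtain ⟨a, ha, hy⟩ := h.cover (g.symm y)
    refine ⟨g • a, Finset.smul_mem_smul_finset ha, ?_⟩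
    show y ∈ Tile.supp (g • a)
    rw [Tile.supp_smul]
    exact ⟨g.symm y, hy, g.apply_symm_apply y⟩

theorem smul_exp (g : Equiv.Perm (Cube S)) {x y : Finset (Tile D S)}
    (h : (cutSys D S).Exp x y) : (cutSys D S).Exp (g • x) (g • y) := by
  obtain ⟨a, ha, b, c, hs, hb, hc, rfl⟩ := h
  refine ⟨g • a, Finset.smul_mem_smul_finset ha, g • b, g • c, Tile.tsp_smul g hs, ?_, ?_, ?_⟩
  · rwa [Finset.smul_mem_smul_finset_iff]
  · rwa [Finset.smul_mem_smul_finset_iff]
  · ext t
    rw [← Finset.inv_smul_mem_iff, mem_rep, mem_rep, ← Finset.inv_smul_mem_iff, inv_smul_eq_iff,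
      inv_smul_eq_iff, Ne, Ne, inv_smul_eq_iff]

/-- If `g` maps ONE vertex of `K` into `K` it maps every vertex of `K` into `K`
(components are mapped to components, `smul_exp` for `g` ). -/
theorem smul_mem_KK_of {g : Equiv.Perm (Cube S)} {x : Finset (Tile D S)} (hx : x ∈ KK D S)
    (hgx : g • x ∈ KK D S) {y : Finset (Tile D S)} (hy : y ∈ KK D S) : g • y ∈ KK D S := by
  have hsymm : Std.Symm (cutSys D S).Adj := ⟨fun _ _ h => h.symm⟩
  have hxy : Relation.ReflTransGen (cutSys D S).Adj x y :=
    (Relation.ReflTransGen.stdSymm.symm _ _ hx).trans hy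
  have hg : Relation.ReflTransGen (cutSys D S).Adj (g • x) (g • y) :=
    hxy.lift (fun z => g • z) (fun _ _ h => h.imp (smul_exp g) (smul_exp g))
  exact Relation.ReflTransGen.trans hgx hg

/-- The same for `g⁻¹`. -/
theorem inv_smul_mem_KK_of {g : Equiv.Perm (Cube S)} {x : Finset (Tile D S)} (hx : x ∈ KK D S)
    (hgx : g • x ∈ KK D S) {y : Finset (Tile D S)} (hy : y ∈ KK D S) : g⁻¹ • y ∈ KK D S :=
  smul_mem_KK_of (g := g⁻¹) hgx (by rwa [inv_smul_smul]) hy

variable (D S)

/-- `Gam` = stabiliser of the component `K` in `Perm (Cube S)` = twisted Brin-Thompson group `SV_D`. -/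
noncomputable def Gam : Subgroup (Equiv.Perm (Cube S)) where
  carrier := {g | g • base D S ∈ KK D S}
  one_mem' := by
    show (1 : Equiv.Perm (Cube S)) • base D S ∈ KK D S
    rw [one_smul]; exact Relation.ReflTransGen.refl
  mul_mem' := by
    intro g h hg hh
    show (g * h) • base D S ∈ KK D S
    rw [mul_smul]
    exact smul_mem_KK_of Relation.ReflTransGen.refl hg hh
  inv_mem' := by
    intro g hg
    exact inv_smul_mem_KK_of Relation.ReflTransGen.refl hg Relation.ReflTransGen.refl

variable {D S}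

theorem mem_Gam {g : Equiv.Perm (Cube S)} : g ∈ Gam D S ↔ g • base D S ∈ KK D S := Iff.rfl

/-- `g` maps some vertex of `K` into `K`  ==>  `g ∈ Gam`. -/
theorem mem_Gam_of_smul {g : Equiv.Perm (Cube S)} {x : Finset (Tile D S)} (hx : x ∈ KK D S)
    (hgx : g • x ∈ KK D S) : g ∈ Gam D S :=
  smul_mem_KK_of hx hgx Relation.ReflTransGen.refl

theorem Gam_smul_mem {g : Equiv.Perm (Cube S)} (hg : g ∈ Gam D S) {x : Finset (Tile D S)}
    (hx : x ∈ KK D S) : g • x ∈ KK D S :=
  smul_mem_KK_of Relation.ReflTransGen.refl hg hx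

theorem KK_isPart {x : Finset (Tile D S)} (hx : x ∈ KK D S) : (cutSys D S).IsPart x :=
  CutSys.K_isPart base_isPart hx

end Claimed.Agent.R152.B
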