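import Claimed.Agent.R152.B.Model.Glue
import Claimed.Agent.R152.B.Model.Adapted

/-!
# Row 152, module B, sec. 5.4: proofs of (T0), (T1), (T1')  (used by `Model/Trans.lean`)
-/

open Pointwise

namespace Claimed.Agent.R152.B

universe u
variable {D : Type u} [Group D] {S : Type u} [MulAction D S] [Nonempty S] {s0 t0 : S}

omit [Nonempty S] in
theorem tra_smul_rep (g : Equiv.Perm (Cube S)) (x : Finset (Tile D S)) (a b c : Tile D S) :
    g • rep x a b c = rep (g • x) (g • a) (g • b) (g • c) := by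
  ext t
  rw [Finset.mem_smul_finset, mem_rep]
  constructor
  · rintro ⟨u, hu, rfl⟩
    rw [mem_rep] at hu
    rcases hu with rfl | rfl | ⟨hne, hu⟩
    · exact Or.inl rfl
    · exact Or.inr (Or.inl rfl)
    · exact Or.inr (Or.inr ⟨fun h => hne (MulAction.injective g h),
        Finset.smul_mem_smul_finset hu⟩)
  · rintro (rfl | rfl | ⟨hne, ht⟩)
    · exact ⟨b, mem_rep.2 (Or.inl rfl), rfl⟩
    · exact ⟨c, mem_rep.2 (Or.inr (Or.inl rfl)), rfl⟩
    · obtain ⟨u, hu, rfl⟩ := Finset.mem_smul_finset.1 ht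
      exact ⟨u, mem_rep.2 (Or.inr (Or.inr ⟨fun h => hne (by rw [h]), hu⟩)), rfl⟩

omit [Nonempty S] in
theorem tra_smul_mrg (g : Equiv.Perm (Cube S)) (x : Finset (Tile D S)) (a b c : Tile D S) :
    g • mrg x a b c = mrg (g • x) (g • a) (g • b) (g • c) := by
  ext t
  rw [Finset.mem_smul_finset, mem_mrg]
  constructor
  · rintro ⟨u, hu, rfl⟩
    rw [mem_mrg] at hu
    rcases hu with rfl | ⟨h1, h2, hu⟩
    · exact Or.inl rfl
    · exact Or.inr ⟨fun h => h1 (MulAction.injective g h), fun h => h2 (MulAction.injective g h),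
        Finset.smul_mem_smul_finset hu⟩
  · rintro (rfl | ⟨h1, h2, ht⟩)
    · exact ⟨a, mem_mrg.2 (Or.inl rfl), rfl⟩
    · obtain ⟨u, hu, rfl⟩ := Finset.mem_smul_finset.1 ht
      exact ⟨u, mem_mrg.2 (Or.inr ⟨fun h => h1 (by rw [h]), fun h => h2 (by rw [h]), hu⟩), rfl⟩

theorem tra_cut {g : Equiv.Perm (Cube S)} {e e' : Chart S} (h : ∀ p, g (e p) = e' p) (s : S)
    (b : Bool) : g • (Tile.mk (e.cut s b) : Tile D S) = Tile.mk (e'.cut s b) :=
  smul_mk_eq (fun p => h (push s b p))

/-- (T0) -/
theorem tra_vertex {x x' : Finset (Tile D S)} (hx : x ∈ KK D S) (hx' : x' ∈ KK D S)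
    (hc : x.card = x'.card) : ∃ g ∈ Gam D S, g • x = x' := by
  obtain ⟨g, hg, hgx, -, -⟩ := exists_glue_ext hx hx' hc ∅ (Finset.empty_subset _) id
    (by simp) (by simp) (fun a => Tile.out a) (fun a => Tile.out a) (by simp) (by simp)
  exact ⟨g, hg, hgx⟩

/-- (T1) -/
theorem tra_exp (H : Hyp D S s0 t0) {x y y' : Finset (Tile D S)} (hx : x ∈ KK D S)
    (h : (cutSys D S).Exp x y) (h' : (cutSys D S).Exp x y') :
    ∃ g ∈ Gam D S, g • x = x ∧ g • y = y' := by
  obtain ⟨a, ha, b, c, hsp, -, -, rfl⟩ := h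
  obtain ⟨a', ha', b', c', hsp', -, -, rfl⟩ := h'
  obtain ⟨e, rfl, rfl, rfl⟩ := adapted1 H hsp
  obtain ⟨e', rfl, rfl, rfl⟩ := adapted1 H hsp'
  obtain ⟨g, hg, hgx, hgE, -⟩ := exists_glue_ext hx hx rfl {Tile.mk e} (by simpa using ha)
    (fun _ => Tile.mk e') (by simp) (by simpa using ha') (fun _ => e) (fun _ => e')
    (by simp) (by simp)
  refine ⟨g, hg, hgx, ?_⟩
  have h1 : ∀ p, g (e p) = e' p := hgE _ (Finset.mem_singleton_self _)
  rw [tra_smul_rep, hgx, smul_mk_eq h1, tra_cut h1, tra_cut h1]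

/-- (T1') -/
theorem tra_exp_down (H : Hyp D S s0 t0) {x x' y : Finset (Tile D S)} (hy : y ∈ KK D S)
    (h : (cutSys D S).Exp x y) (h' : (cutSys D S).Exp x' y) :
    ∃ g ∈ Gam D S, g • y = y ∧ g • x = x' := by
  obtain ⟨a, b, c, hb, hc, hsp, rfl⟩ := h.exists_mrg
  obtain ⟨a', b', c', hb', hc', hsp', rfl⟩ := h'.exists_mrg
  have hbc : b ≠ c := CutSys.sp_ne hsp
  have hbc' : b' ≠ c' := CutSys.sp_ne hsp'
  obtain ⟨e, rfl, hbe, hce⟩ := adapted1 H hsp
  obtain ⟨e', rfl, hbe', hce'⟩ := adapted1 H hsp'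
  obtain ⟨g, hg, hgy, hgE, hgσ⟩ := exists_glue_ext hy hy rfl {b, c}
    (by
      intro t ht
      rcases Finset.mem_insert.1 ht with rfl | ht
      · exact hb
      · rw [Finset.mem_singleton.1 ht]; exact hc)
    (fun t => if t = b then b' else c')
    (by
      intro t ht u hu htu
      have ht' : t = b ∨ t = c := by simpa using ht
      have hu' : u = b ∨ u = c := by simpa using hu
      rcases ht' with rfl | rfl <;> rcases hu' with rfl | rfl
      · rfl
      · simp only [if_true, if_neg hbc.symm] at htu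
        exact absurd htu hbc'
      · simp only [if_true, if_neg hbc.symm] at htu
        exact absurd htu.symm hbc'
      · rfl)
    (by
      intro t ht
      by_cases htb : t = b
      · simp only [if_pos htb]; exact hb'
      · simp only [if_neg htb]; exact hc')
    (fun t => if t = b then e.cut s0 false else e.cut s0 true)
    (fun t => if t = b then e'.cut s0 false else e'.cut s0 true)
    (by
      intro t ht
      have ht' : t = b ∨ t = c := by simpa using ht
      rcases ht' with rfl | rfl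
      · simp only [if_true]; exact hbe.symm
      · simp only [if_neg hbc.symm]; exact hce.symm)
    (by
      intro t ht
      have ht' : t = b ∨ t = c := by simpa using ht
      rcases ht' with rfl | rfl
      · simp only [if_true]; exact hbe'.symm
      · simp only [if_neg hbc.symm]; exact hce'.symm)
  have hF : ∀ p, g (e (push s0 false p)) = e' (push s0 false p) := by
    intro p
    have := hgE b (by simp) p
    simpa only [if_true, Chart.cut_apply] using this
  have hT : ∀ p, g (e (push s0 true p)) = e' (push s0 true p) := by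
    intro p
    have := hgE c (by simp) p
    simpa only [if_neg hbc.symm, Chart.cut_apply] using this
  have h1 : ∀ p, g (e p) = e' p := by
    intro p
    rw [← push_pop s0 p]
    cases p s0 0
    · exact hF _
    · exact hT _
  have hgb : g • b = b' := by
    have := hgσ b (by simp)
    simpa only [if_true] using this
  have hgc : g • c = c' := by
    have := hgσ c (by simp)
    simpa only [if_neg hbc.symm] using this
  refine ⟨g, hg, hgy, ?_⟩
  rw [tra_smul_mrg, hgy, smul_mk_eq h1, hgb, hgc]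

end Claimed.Agent.R152.B
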