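import Claimed.Agent.R152.B.Model.Glue
import Claimed.Agent.R152.B.Model.Adapted
import Claimed.Agent.R152.B.Model.TransAux

/-!
# Row 152, module B, sec. 5.4: transitivity (T0)-(T3), (T1')

Black boxes: `Model/Tile.lean`, `Model/Glue.lean` (`exists_glue_ext`), `Model/Adapted.lean`, `Cut/Part.lean` (`Exp.data`).
Statements FROZEN; auxiliary lemmas welcome.
Pattern of all proofs: choose adapted charts for the tiles of the two data, apply `exists_glue_ext` with `A` = the tiles that are cut;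
`g ∘ e = e'` gives `g • [e.cut s b] = [e'.cut s b]` (`smul_mk_eq`); for the rest `R`: `g • insert a R = insert a' R'`, `g • a = a'`, `a ∉ R`, `a' ∉ R'`
give `g • R = R'`; then `Finset.smul_finset_insert`.
-/

open Pointwise

namespace Claimed.Agent.R152.B

universe u
variable {D : Type u} [Group D] {S : Type u} [MulAction D S] [Nonempty S] {s0 t0 : S}

/-- (T0) -/
theorem trans_vertex {x x' : Finset (Tile D S)} (hx : x ∈ KK D S) (hx' : x' ∈ KK D S)
    (hc : x.card = x'.card) : ∃ g ∈ Gam D S, g • x = x' := by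
  exact tra_vertex hx hx' hc

/-- (T1) -/
theorem trans_exp (H : Hyp D S s0 t0) {x y y' : Finset (Tile D S)} (hx : x ∈ KK D S)
    (h : (cutSys D S).Exp x y) (h' : (cutSys D S).Exp x y') :
    ∃ g ∈ Gam D S, g • x = x ∧ g • y = y' := by
  exact tra_exp H hx h h'

/-- (T1').  `A = {b, c}` (the two halves in `y`), charts `e.cut s0 false`, `e.cut s0 true`; `g ∘ e = e'` because the ranges of
`push s0 false`, `push s0 true` cover the cube. -/
theorem trans_exp_down (H : Hyp D S s0 t0) {x x' y : Finset (Tile D S)} (hy : y ∈ KK D S)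
    (h : (cutSys D S).Exp x y) (h' : (cutSys D S).Exp x' y) :
    ∃ g ∈ Gam D S, g • y = y ∧ g • x = x' := by
  exact tra_exp_down H hy h h'

omit [Nonempty S] in
/-- the pointwise action commutes with `rep` (for the tiles of the model). -/
theorem tsq_smul_rep (g : Equiv.Perm (Cube S)) (x : Finset (Tile D S)) (a b c : Tile D S) :
    g • rep x a b c = rep (g • x) (g • a) (g • b) (g • c) := by
  ext t
  rw [← Finset.inv_smul_mem_iff, mem_rep, mem_rep, ← Finset.inv_smul_mem_iff, inv_smul_eq_iff,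
    inv_smul_eq_iff, Ne, Ne, inv_smul_eq_iff]

/-- (T2) -/
theorem trans_sq (H : Hyp D S s0 t0) {x y z t y' z' t' : Finset (Tile D S)} (hx : x ∈ KK D S)
    (h : (cutSys D S).SqCell x y z t) (h' : (cutSys D S).SqCell x y' z' t') :
    ∃ g ∈ Gam D S, g • x = x ∧ g • y = y' ∧ g • z = z' ∧ g • t = t' := by
  classical
  obtain ⟨a, ha, a', ha', hne, b, c, b', c', h1, h2, rfl, rfl, rfl⟩ := h
  obtain ⟨α, hα, α', hα', hne', β, γ, β', γ', k1, k2, rfl, rfl, rfl⟩ := h'
  obtain ⟨e, rfl, rfl, rfl⟩ := adapted1 H h1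
  obtain ⟨e', rfl, rfl, rfl⟩ := adapted1 H h2
  obtain ⟨ε, rfl, rfl, rfl⟩ := adapted1 H k1
  obtain ⟨ε', rfl, rfl, rfl⟩ := adapted1 H k2
  obtain ⟨g, hg, hgx, hgE, hgσ⟩ := exists_glue_ext hx hx rfl
    ({Tile.mk e, Tile.mk e'} : Finset (Tile D S))
    (by
      intro u hu
      rcases Finset.mem_insert.1 hu with rfl | hu
      · exact ha
      · rw [Finset.mem_singleton.1 hu]; exact ha')
    (fun u => if u = Tile.mk e then Tile.mk ε else Tile.mk ε')
    (by
      intro u hu v hv huv
      have hu' : u = Tile.mk e ∨ u = Tile.mk e' := by simpa using hu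
      have hv' : v = Tile.mk e ∨ v = Tile.mk e' := by simpa using hv
      rcases hu' with rfl | rfl <;> rcases hv' with rfl | rfl
      · rfl
      · simp only [if_true, if_neg hne.symm] at huv
        exact absurd huv hne'
      · simp only [if_true, if_neg hne.symm] at huv
        exact absurd huv.symm hne'
      · rfl)
    (by
      intro u _
      by_cases hu : u = Tile.mk e
      · simp only [if_pos hu]; exact hα
      · simp only [if_neg hu]; exact hα')
    (fun u => if u = Tile.mk e then e else e')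
    (fun u => if u = Tile.mk e then ε else ε')
    (by
      intro u hu
      have hu' : u = Tile.mk e ∨ u = Tile.mk e' := by simpa using hu
      rcases hu' with rfl | rfl
      · simp only [if_true]
      · simp only [if_neg hne.symm])
    (by
      intro u _
      by_cases hu : u = Tile.mk e
      · simp only [if_pos hu]
      · simp only [if_neg hu])
  have he : ∀ p, g (e p) = ε p := by
    intro p
    have := hgE (Tile.mk e) (by simp) p
    simpa only [if_true] using this
  have he' : ∀ p, g (e' p) = ε' p := by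
    intro p
    have := hgE (Tile.mk e') (by simp) p
    simpa only [if_neg hne.symm] using this
  have e1 : g • (Tile.mk e : Tile D S) = Tile.mk ε := smul_mk_eq he
  have e2 : g • (Tile.mk e' : Tile D S) = Tile.mk ε' := smul_mk_eq he'
  have e3 : ∀ bb, g • (Tile.mk (e.cut s0 bb) : Tile D S) = Tile.mk (ε.cut s0 bb) :=
    fun bb => smul_mk_eq fun p => he _
  have e4 : ∀ bb, g • (Tile.mk (e'.cut s0 bb) : Tile D S) = Tile.mk (ε'.cut s0 bb) :=
    fun bb => smul_mk_eq fun p => he' _
  refine ⟨g, hg, hgx, ?_, ?_, ?_⟩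
  · rw [tsq_smul_rep, hgx, e1, e3, e3]
  · rw [tsq_smul_rep, hgx, e2, e4, e4]
  · rw [tsq_smul_rep, tsq_smul_rep, hgx, e1, e2, e3, e3, e4, e4]

/-- (T3): the only use of 2-transitivity (`adapted_hx`). -/
theorem trans_hx (H : Hyp D S s0 t0) {x x1 x2 y1 y2 z x1' x2' y1' y2' z' : Finset (Tile D S)}
    (hx : x ∈ KK D S) (h : (cutSys D S).HxCell x x1 x2 y1 y2 z)
    (h' : (cutSys D S).HxCell x x1' x2' y1' y2' z') :
    ∃ g ∈ Gam D S, g • x = x ∧ g • x1 = x1' ∧ g • x2 = x2' ∧ g • y1 = y1' ∧ g • y2 = y2' ∧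
      g • z = z' := by
  classical
  obtain ⟨a, ha, b0, b1, c0, c1, q00, q01, q10, q11, h1, h2, h3, h4, h5, h6,
    rfl, rfl, rfl, rfl, rfl⟩ := h
  obtain ⟨α, hα, β0, β1, γ0, γ1, r00, r01, r10, r11, k1, k2, k3, k4, k5, k6,
    rfl, rfl, rfl, rfl, rfl⟩ := h'
  obtain ⟨e, rfl, rfl, rfl, rfl, rfl, rfl, rfl, rfl, rfl⟩ := adapted_hx H h1 h2 h3 h4 h5 h6
  obtain ⟨ε, rfl, rfl, rfl, rfl, rfl, rfl, rfl, rfl, rfl⟩ := adapted_hx H k1 k2 k3 k4 k5 k6
  obtain ⟨g, hg, hgx, hgE, hgσ⟩ := exists_glue_ext hx hx rfl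
    ({Tile.mk e} : Finset (Tile D S)) (by simpa using ha)
    (fun _ => Tile.mk ε)
    (by
      intro u hu v hv _
      rw [Finset.mem_coe, Finset.mem_singleton] at hu hv
      rw [hu, hv])
    (fun _ _ => hα) (fun _ => e) (fun _ => ε)
    (by
      intro u hu
      rw [Finset.mem_singleton] at hu
      exact hu.symm)
    (fun _ _ => rfl)
  have he : ∀ p, g (e p) = ε p := fun p => hgE (Tile.mk e) (by simp) p
  have e1 : g • (Tile.mk e : Tile D S) = Tile.mk ε := smul_mk_eq he
  have e2 : ∀ s bb, g • (Tile.mk (e.cut s bb) : Tile D S) = Tile.mk (ε.cut s bb) :=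
    fun s bb => smul_mk_eq fun p => he _
  have e3 : ∀ s bb s' bb', g • (Tile.mk ((e.cut s bb).cut s' bb') : Tile D S)
      = Tile.mk ((ε.cut s bb).cut s' bb') :=
    fun s bb s' bb' => smul_mk_eq fun p => he _
  refine ⟨g, hg, hgx, ?_, ?_, ?_, ?_, ?_⟩ <;>
    simp only [tsq_smul_rep, hgx, e1, e2, e3]

end Claimed.Agent.R152.B
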